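import Vale.Agent.P193.Bh.Alg.Half
import Vale.Agent.P193.Bh.Slots.Main
import Vale.Agent.P193.Bh.Group.Depths.All
import Vale.Agent.P193.Bh.Group.Linear.Goal
import Vale.Agent.P193.Bh.Group.Perm.Point
import Vale.Agent.P193.Bh.Group.Simple
import Vale.Agent.P193.Bh.Group.Lamp.Site
import Vale.Agent.P193.Bh.Universe

/-!
# P193: the Boone–Higman conjecture

Every finitely generated group with decidable word problem embeds in a finitely presented simple
group.
-/

namespace Vale.Agent.Results.P193.BooneHigmanConjecture

open Vale.Agent.P193.Bh

universe u

/-- Every finitely generated group with decidable word problem embeds in a finitely presented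
simple group. -/
theorem result (G : Type u) [Group G] (n : ℕ) (s : Fin n → G)
    (hs : Subgroup.closure (Set.range s) = ⊤)
    (hd : ComputablePred (fun l : List (Fin n × Bool) => FreeGroup.lift s (FreeGroup.mk l) = 1)) :
    ∃ (H : Type) (_ : Group H) (f : G →* H),
      Function.Injective f ∧ IsSimpleGroup H ∧ Group.IsFinitelyPresented H :=
  booneHigman_universe
    (booneHigman_of_halves
      (groupHalf_of_goals Lamp.lampGoal slotsGoal depthsGoal simpleGoal pointGoal linearGoal)
      Alg.algebraHalf)
    G n s hs hd

end Vale.Agent.Results.P193.BooneHigmanConjecture
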